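import Vale.Agent.P181.DG.Defs2
import Vale.Agent.P181.PL10.Lin
import Vale.Agent.P181.H536.HW
import Vale.Agent.P181.H467.NT.Defs

set_option autoImplicit false

/-!
# P181, DG, (D9): the theorem near the diagonal, from `Heavy3D`, `Heavy4D`, `LightD`, `LinS`
-/

namespace Vale.Agent.P181.DG9

open Vale.Agent.P181.T4 (ex low)
open Vale.Agent.P181.H280 (plethMult)
open Vale.Agent.P181.PL Vale.Agent.P181.DG

/-- Few cells below row two: `D_2 ≤ b - a + 1`. -/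
lemma fewD {a b n : ℕ} (lam : Fin n → ℕ) (ha : 2 ≤ a) (hn : 2 ≤ n)
    (h : dn lam 2 + a ≤ b + 1) : plethMult a b n lam ≤ plethMult b a n lam := by
  obtain ⟨m, rfl⟩ := Nat.exists_eq_add_of_le' hn
  apply H536.plethMult_le (N := a - 1) (by omega) (by omega) lam
  have h1 : dn lam 2 = ∑ i : Fin m, lam i.succ.succ := by
    unfold dn
    rw [Fin.sum_univ_succ, Fin.sum_univ_succ]
    rw [if_neg (by simp), if_neg (by simp), zero_add, zero_add]
    apply Finset.sum_congr rfl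
    intro i _
    rw [if_pos]
    simp only [Fin.val_succ]
    omega
  rw [h1] at h
  omega

/-- The scan over `R` near the diagonal. -/
theorem scanD (h3 : Heavy3D) (h4 : Heavy4D) (hL : LightD) (a b n X : ℕ) (lam : Fin n → ℕ)
    (hanti : Antitone lam) (hsum : ∑ i, lam i = a * b) (hpos : ∀ i, 0 < lam i) (hna : n ≤ a)
    (hab : a ≤ b) (hb5 : b ≤ 5 * a) (hwb : dn lam 1 * X ^ 13000 ≤ (b - a) ^ 2)
    (haX : X ^ 20000 ≤ a) (hX : 10 ^ 12 * (1 + Real.log a) ^ 7 ≤ (X : ℝ))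
    (h3a : 3 * a ≤ dn lam 1) (hw : dn lam 1 * X ^ 13000 ≤ a ^ 2) :
    plethMult a b n lam ≤ plethMult b a n lam := by
  obtain ⟨hX1, hX12⟩ := PL10.X_ge hX
  have hX0 : 0 < X := by omega
  have haX1 : X ≤ a := le_trans (Nat.le_self_pow (by norm_num) X) haX
  have ha1 : 1 ≤ a := by omega
  have hb : b ≤ a ^ 2 := by
    calc b ≤ 5 * a := hb5
      _ ≤ a * a := Nat.mul_le_mul_right _ (by omega)
      _ = a ^ 2 := by ring
  have hn2 : 2 ≤ n := by
    by_contra hcon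
    have h1 := dn_ge lam (show n ≤ 1 by omega)
    omega
  rcases le_or_gt (dn lam 2 + a) (b + 1) with h2 | h2
  · exact fewD lam (by omega) hn2 h2
  rcases le_or_gt (ex lam 1) a with h1 | h1
  · obtain ⟨m, rfl⟩ : ∃ m, n = m + 1 := ⟨n - 1, by omega⟩
    refine H54.foulkes_secondRow a b hab lam (fun i hi => ?_)
    have h3 : 1 ≤ (i : ℕ) := by
      rcases Nat.eq_zero_or_pos (i : ℕ) with h0 | h0
      · exact absurd (Fin.ext h0) hi
      · exact h0
    have h4 := exanti hanti h3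
    rw [exfin] at h4
    omega
  have e1 : dn lam 1 ≤ dn lam 1 * X ^ 13000 := Nat.le_mul_of_pos_right _ (Nat.pow_pos hX0)
  have e2 : dn lam 1 * X ^ 6000 ≤ dn lam 2 ^ 2 := by
    calc dn lam 1 * X ^ 6000 ≤ dn lam 1 * X ^ 13000 :=
          Nat.mul_le_mul_left _ (Nat.pow_le_pow_right hX0 (by norm_num))
      _ ≤ (b - a) ^ 2 := hwb
      _ ≤ dn lam 2 ^ 2 := Nat.pow_le_pow_left (by omega) 2
  have hy : HyD a b n X lam :=
    ⟨hanti, hsum, hpos, hna, hab, hb5, e1.trans hwb, haX, hX, e2, h1, h3a, hw⟩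
  obtain ⟨R, hR3, hRX, hs⟩ := PL10.exists_R lam hsum ha1 hb hX
  rcases le_or_gt (X ^ 2550 * dn lam R) (ex lam 2) with hl | hl
  · exact hL a b n X R lam hy hR3 hRX hl
  have hRn : R < n := by
    by_contra h
    rw [dn_ge lam (by omega), mul_zero] at hl
    omega
  have hR : HyDR a b n X R lam := by
    refine ⟨hy, hR3, hRn, hRX, hs, ?_⟩
    have h3 := dn_le hanti 2 (R - 2)
    rw [show 2 + (R - 2) = R by omega] at h3
    calc dn lam 2 ≤ dn lam R + (R - 2) * ex lam 2 := h3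
      _ ≤ 1 * dn lam R + X ^ 14 * (X ^ 2550 * dn lam R) := by
          rw [one_mul]
          exact Nat.add_le_add_left (Nat.mul_le_mul (by omega) hl.le) _
      _ = (1 + X ^ 2564) * dn lam R := by
          rw [show (2564 : ℕ) = 14 + 2550 by norm_num, pow_add]
          ring
      _ ≤ X ^ 2600 * dn lam R := by
          apply Nat.mul_le_mul_right
          calc 1 + X ^ 2564 ≤ X ^ 2564 + X ^ 2564 :=
                Nat.add_le_add_right (Nat.one_le_pow _ _ hX0) _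
            _ = 2 * X ^ 2564 := by ring
            _ ≤ X * X ^ 2564 := Nat.mul_le_mul_right _ (by omega)
            _ = X ^ (2564 + 1) := (pow_succ' _ _).symm
            _ ≤ X ^ 2600 := Nat.pow_le_pow_right hX0 (by norm_num)
  rcases le_or_gt (X ^ 2 * dn lam 2) (dn lam 1) with hd | hd
  · exact h3 a b n X R lam hR hd
  · exact h4 a b n X R lam hR hd

/-- **(D9), the last step.** -/
theorem diagR_of (h3 : Heavy3D) (h4 : Heavy4D) (hL : LightD) (hS : H467.NT.LinS) : DiagR := by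
  obtain ⟨C1, c1, hC1, hS⟩ := hS
  obtain ⟨K, hK⟩ : ∃ K : ℝ, K = 2 * 10 ^ 12 := ⟨_, rfl⟩
  have hK0 : 0 < K := by
    rw [hK]
    norm_num
  obtain ⟨A0, hA0⟩ := PL10.ev K hK0 7 20000
  obtain ⟨M, hM⟩ : ∃ M : ℝ, M = K ^ 13000 := ⟨_, rfl⟩
  have hM0 : 0 < M := by
    rw [hM]
    exact pow_pos hK0 _
  have hA2 : (0 : ℝ) ≤ (A0 : ℝ) ^ 2 := by positivity
  obtain ⟨C, hC⟩ : ∃ C : ℝ, C = M + (A0 : ℝ) ^ 2 + C1 := ⟨_, rfl⟩
  have hCM : M ≤ C := by linarith
  have hCA : (A0 : ℝ) ^ 2 ≤ C := by linarith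
  have hCC : C1 ≤ C := by linarith
  have hC0 : 0 < C := by linarith
  refine ⟨C, 7 * 13000 + c1, hC0, ?_⟩
  intro a b hab n lam h3a hwb hw
  have hlog : 0 ≤ Real.log a := Real.log_natCast_nonneg a
  have hL1 : (1 : ℝ) ≤ 1 + Real.log a := by linarith
  have hL2 : (1 : ℝ) ≤ (1 + Real.log a) ^ (7 * 13000 + c1) := one_le_pow₀ hL1
  have hLa : (1 + Real.log a) ^ (7 * 13000) ≤ (1 + Real.log a) ^ (7 * 13000 + c1) :=
    pow_le_pow_right₀ hL1 (Nat.le_add_right _ _)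
  have hLb : (1 + Real.log a) ^ c1 ≤ (1 + Real.log a) ^ (7 * 13000 + c1) :=
    pow_le_pow_right₀ hL1 (Nat.le_add_left _ _)
  have hL0 : (0 : ℝ) ≤ (1 + Real.log a) ^ (7 * 13000) := pow_nonneg (by linarith) _
  have hL0' : (0 : ℝ) ≤ (1 + Real.log a) ^ c1 := pow_nonneg (by linarith) _
  have hw0 : (0 : ℝ) ≤ dn lam 1 := Nat.cast_nonneg _
  obtain ⟨L, hLd⟩ : ∃ L : ℝ, L = (1 + Real.log a) ^ (7 * 13000 + c1) := ⟨_, rfl⟩
  rw [← hLd] at hwb hw hL2 hLa hLb
  rcases le_or_gt (5 * a) b with hb5 | hb5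
  · refine hS a b hb5 n lam (le_trans ?_ hw)
    apply mul_le_mul_of_nonneg_right _ hw0
    exact mul_le_mul hCC hLb hL0' hC0.le
  rcases lt_or_ge a A0 with ha | ha
  · -- small `a`
    exfalso
    have h0 : 1 ≤ dn lam 1 := by omega
    have h1 : (1 : ℝ) ≤ dn lam 1 := by exact_mod_cast h0
    have h2 : (a : ℝ) ^ 2 < (A0 : ℝ) ^ 2 := by
      have : (a : ℝ) < A0 := by exact_mod_cast ha
      exact pow_lt_pow_left₀ this (Nat.cast_nonneg _) (by norm_num)
    have h6 : C ≤ C * L := le_mul_of_one_le_right hC0.le hL2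
    have h7 : C * L ≤ C * L * (dn lam 1 : ℝ) := le_mul_of_one_le_right (hC0.le.trans h6) h1
    linarith
  refine PL10.trimQ lam fun k mu hanti hsum hpos hka hdn => ?_
  obtain ⟨X, hX1, hX2⟩ := PL10.exists_X a 7
  rw [← hK] at hX2
  have hKL : K ^ 13000 * (1 + Real.log a) ^ (7 * 13000) * (dn lam 1 : ℝ) ≤
      C * L * (dn lam 1 : ℝ) := by
    rw [← hM]
    apply mul_le_mul_of_nonneg_right _ hw0
    exact mul_le_mul hCM hLa hL0 hC0.le
  refine scanD h3 h4 hL a b k X mu hanti hsum hpos hka hab hb5.le ?_ ?_ hX1 ?_ ?_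
  · have h1 := PL10.num_q (w := (dn lam 1 : ℝ)) (A := ((b : ℝ) - a) ^ 2) 13000 7
      hw0 (Nat.cast_nonneg X) hX2 (hKL.trans hwb)
    rw [hdn 1]
    rw [← Nat.cast_sub hab, ← Nat.cast_pow, ← Nat.cast_pow, ← Nat.cast_mul] at h1
    exact Nat.cast_le.1 h1
  · have h1 : (X : ℝ) ^ 20000 ≤ (K * (1 + Real.log a) ^ 7) ^ 20000 :=
      pow_le_pow_left₀ (Nat.cast_nonneg _) hX2 _
    have h2 := h1.trans (hA0 a ha)
    rw [← Nat.cast_pow] at h2
    exact Nat.cast_le.1 h2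
  · rw [hdn 1]
    exact h3a
  · have h1 := PL10.num_q (w := (dn lam 1 : ℝ)) (A := (a : ℝ) ^ 2) 13000 7
      hw0 (Nat.cast_nonneg X) hX2 (hKL.trans hw)
    rw [hdn 1]
    rw [← Nat.cast_pow, ← Nat.cast_pow, ← Nat.cast_mul] at h1
    exact Nat.cast_le.1 h1

end Vale.Agent.P181.DG9
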