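import Vale.Agent.P181.DG8.Main
import Vale.Agent.P181.DGx.H831.Mono
import Vale.Agent.P181.DGx.H831.Ker
import Vale.Agent.P181.DG2.H398.Up
import Vale.Agent.P181.DGx.H248.Low
import Vale.Agent.P181.DG4.H237.Final
import Vale.Agent.P181.DG4a.Nfq
import Vale.Agent.P181.DG4r.H909.Rest
import Vale.Agent.P181.H435.AdQ
import Vale.Agent.P181.DG5.FewT
import Vale.Agent.P181.DG6.H887.Mark
import Vale.Agent.P181.DG7.Flow
import Vale.Agent.P181.DG9.H207.Main
import Vale.Agent.P181.DG9.H214.Heavy4D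
import Vale.Agent.P181.DG9.H373.Heavy3
import Vale.Agent.P181.DG9.H924.Light
import Vale.Agent.P181.DG9.H924.E.Main
import Vale.Agent.P181.H467.NT.All
import Vale.Agent.P181.SZR2a.LowerA

set_option autoImplicit false

/-!
# P181, DG: the theorem near the diagonal, without hypotheses
-/

namespace Vale.Agent.P181.DG9

open Vale.Agent.P181.SZ Vale.Agent.P181.DG

/-- (D4) -/
theorem disT : DisT :=
  DG4.H237.disT_of_blocks DGx.H831.kerStmt H435.adQ (DG4a.nfq DG4r.H909.restStmt)

/-- (D8) -/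
theorem asmR : AsmR :=
  DG8.asmR DGx.H831.monoT DG2.H398.upT DGx.H248.lowT disT DG5.fewT DG6.H887.markT DG7.flowT
    R1b.upperS (fun a b m lam => R1a a b m lam) SZR2a.lowerA H467.pieS

/-- **The theorem near the diagonal.** -/
theorem diagR : DiagR :=
  diagR_of (heavy3D_of PL4.lbl asmR) (heavy4D (PL3.lbi PL2.lEx) asmR)
    (DG.H924.lightD_of asmR SZN3.lbcF SZN3.lbrF) H467.NT.linS

/-- The E-version: it contains `diagR` and the stable range. -/
theorem diagE : DG.E924.DiagE :=
  DG.E924.diagE_of asmR PL4.lbl (PL3.lbi PL2.lEx) SZN3.lbcF SZN3.lbrF H467.NT.linS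

end Vale.Agent.P181.DG9
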